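import Vale.Agent.P216.H313V.FO3
import Vale.Agent.P216.H961.C0

/-!
# P216-V, (F): the field `f0` of `Ev`, and the ends of the evaluations in the fibre
-/

set_option linter.all false

open Set Filter Topology
open scoped ContDiff

namespace Vale.Agent.P216.H313V

open Vale.Agent.P216.Sl Vale.Agent.P216.PS Vale.Agent.P216.V1
open Vale.Agent.P231.Fm Vale.Agent.P231.WA
open Vale.Agent.P216.H923G Vale.Agent.P216.H929V Vale.Agent.P216.V609

noncomputable section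

variable {M P : Type} [PseudoMetricSpace M] [PseudoMetricSpace P]
variable {p : P → M} {X : Set P} {ε₁ ε δ : ℝ} {b : M} {q : ℕ} {ζ : M → Ch ℝ P}

/-- **(f0)** -/
theorem f0 [PreconnectedSpace M] (hS : Scl ε₁ ε δ) (hζ : Cy p X ε₁ δ q ζ) (hδ : 0 < δ)
    (hf : ζ b ∈ Sp ℝ fun l => ∀ x ∈ l, p x = b) {w : HT (id : M → M) p X univ ε}
    (h0 : Form.IsDeg 0 (evz hS hζ w.val)) (hd : (evz hS hζ w.val).d = 0)
    (hB : (rO p X b ε).f w ∈ (oN p X b ε).B q) : evz hS hζ w.val = 0 :=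
  f0_const hS hζ hδ hf (H961.const0 hδ h0 hd) hB

/-- the cycles `mp (ψ b) z` lie in the fibre -/
theorem fib_mp {E' : Type} {O : Set E'} {ψ : E' → P} (hψ : ∀ v ∈ O, p (ψ v) = b) {z : Ch ℝ E'}
    (hz : z ∈ Sp ℝ fun l => ∀ x ∈ l, x ∈ O) :
    mp ψ z ∈ Sp ℝ fun l => ∀ x ∈ l, p x = b := by
  refine map_mem (mp ψ) (fun l hl => ?_) hz
  rw [mp_single]
  refine single_mem (fun x hx => ?_) _
  obtain ⟨y, hy, rfl⟩ := List.mem_map.1 hx
  exact hψ y (hl y hy)

end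

end Vale.Agent.P216.H313V
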