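import Vale.Agent.P216.H313V.F0
import Vale.Agent.P216.H456.PTriv

/-!
# P216-V, (F): `f0` and `rO_low` for `O = P b b t`
-/

set_option linter.all false

open Set Filter Topology BoundedContinuousFunction
open scoped ContDiff

namespace Vale.Agent.P216.H313V

open Vale.Agent.P216.Sl Vale.Agent.P216.PS Vale.Agent.P216.V1
open Vale.Agent.P231.Fm Vale.Agent.P231.WA
open Vale.Agent.P216.H923G Vale.Agent.P216.H929V Vale.Agent.P216.V609

noncomputable section

variable {M P : Type} [PseudoMetricSpace M] [PseudoMetricSpace P]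
variable {p : P → M} {X A : Set P} {ε₁ ε δ : ℝ} {b : M} {q : ℕ} {ζ : M → Ch ℝ P}

/-- `rO_low` for a fibre `A` in another literal form -/
theorem rO_low' (hA : A = fb p X b)
    (h : (DT (id : M → M) p A ({b} : Set M) ε).Map (DT (id : M → M) p X univ ε) id)
    {w : HT (id : M → M) p X univ ε} (hw : w ∈ (hN (id : M → M) p X univ ε).deg q)
    (hl : len (q + 1) w.val = 0) : (pullHom Sq.id h).f w = 0 := by
  subst hA
  exact rO_low hw hl

/-- **(f0)** for a fibre `A` in another literal form -/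
theorem f0' [PreconnectedSpace M] (hA : A = fb p X b)
    (h : (DT (id : M → M) p A ({b} : Set M) ε).Map (DT (id : M → M) p X univ ε) id)
    (hS : Scl ε₁ ε δ) (hζ : Cy p X ε₁ δ q ζ) (hδ : 0 < δ)
    (hf : ζ b ∈ Sp ℝ fun l => ∀ x ∈ l, p x = b) {w : HT (id : M → M) p X univ ε}
    (h0 : Form.IsDeg 0 (evz hS hζ w.val)) (hd : (evz hS hζ w.val).d = 0)
    (hB : (pullHom Sq.id h).f w ∈ (hN (id : M → M) p A ({b} : Set M) ε).B q) :
    evz hS hζ w.val = 0 := by
  subst hA
  exact f0 hS hζ hδ hf h0 hd hB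

/-- the based loops are the fibre of the paths to `b` -/
theorem P_eq_fb {M : Type} [MetricSpace M] (b : M) (t : ℝ) :
    PS.P b b t = fb (fun w : ℝ →ᵇ M => w 0) (H456.PF b t) b := by
  ext w
  constructor
  · intro h
    have h0 : w 0 = b := h.2.1 0 le_rfl
    exact ⟨⟨h.1, fun u hu => by rw [h.2.1 u hu, h0], h.2.2⟩, h0⟩
  · rintro ⟨h, h0⟩
    have h0' : w 0 = b := h0
    exact ⟨h.1, fun u hu => by rw [h.2.1 u hu, h0'], h.2.2⟩

end

end Vale.Agent.P216.H313V
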