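import Vale.Agent.P216.H923G.Evz
import Vale.Agent.P216.H929V.HPull
import Vale.Agent.P216.V1.Point

/-!
# P216-V, (F): the fibre over a point at one scale (row F-O3)

`fb p X b`: the fibre. `rO`: the restriction of the hybrid dga to the fibre over `b`. `f0`: if the
restriction of `w` to the fibre is exact, then the evaluations of `w` vanish at `b`; so a closed
evaluation of degree zero vanishes.
-/

set_option linter.all false

open Set Filter Topology
open scoped ContDiff

namespace Vale.Agent.P216.H313V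

open Vale.Agent.P216.Sl Vale.Agent.P216.PS Vale.Agent.P216.V1
open Vale.Agent.P231.Fm Vale.Agent.P231.WA
open Vale.Agent.P216.H923G Vale.Agent.P216.H929V Vale.Agent.P216.V609

noncomputable section

variable {M P : Type} [PseudoMetricSpace M] [PseudoMetricSpace P]
variable {p : P → M} {X Y : Set P} {ε₁ ε ε' δ : ℝ} {b : M} {l : List P} {q : ℕ}
  {ζ : M → Ch ℝ P}

/-- the fibre over `b` -/
def fb (p : P → M) (X : Set P) (b : M) : Set P := {w | w ∈ X ∧ p w = b}

theorem fb_mono (h : X ⊆ Y) : fb p X b ⊆ fb p Y b := fun _ hw => ⟨h hw.1, hw.2⟩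

theorem map_fb (p : P → M) (X : Set P) (b : M) (ε : ℝ) :
    (DT (id : M → M) p (fb p X b) {b} ε).Map (DT (id : M → M) p X univ ε) id :=
  map_mono (fun _ h => h.1) (subset_univ _) le_rfl

/-- **the fibre algebra over `b`** -/
abbrev oN (p : P → M) (X : Set P) (b : M) (ε : ℝ) :=
  hN (id : M → M) p (fb p X b) ({b} : Set M) ε

/-- **restriction to the fibre over `b`** -/
def rO (p : P → M) (X : Set P) (b : M) (ε : ℝ) :
    NDga.Hom (hN (id : M → M) p X univ ε) (oN p X b ε) :=
  pullHom Sq.id (map_fb p X b ε)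

theorem map_sO (h : Y ⊆ X) (hε : ε' ≤ ε) (b : M) :
    (DT (id : M → M) p (fb p Y b) {b} ε').Map (DT (id : M → M) p (fb p X b) {b} ε) id :=
  map_mono (fb_mono h) le_rfl hε

theorem map_rD (h : Y ⊆ X) (hε : ε' ≤ ε) :
    (DT (id : M → M) p Y univ ε').Map (DT (id : M → M) p X univ ε) id :=
  map_mono h le_rfl hε

/-- restriction of the fibre algebra to a smaller level and a smaller scale -/
def sO (h : Y ⊆ X) (hε : ε' ≤ ε) (b : M) : NDga.Hom (oN p X b ε) (oN p Y b ε') :=
  pullHom Sq.id (map_sO h hε b)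

/-- restriction of the hybrid algebra to a smaller level and a smaller scale -/
def rD (h : Y ⊆ X) (hε : ε' ≤ ε) :
    NDga.Hom (hN (id : M → M) p X univ ε) (hN (id : M → M) p Y univ ε') :=
  pullHom Sq.id (map_rD h hε)

theorem sO_rO (h : Y ⊆ X) (hε : ε' ≤ ε) (w : HT (id : M → M) p X univ ε) :
    (sO h hε b).f ((rO p X b ε).f w) = (rO p Y b ε').f ((rD h hε).f w) := by
  refine HT.ext ?_
  change Form.pull id (map_sO h hε b) (Form.pull id (map_fb p X b ε) w.val) =
    Form.pull id (map_fb p Y b ε') (Form.pull id (map_rD h hε) w.val)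
  refine ext_T fun V _ _ _ u s F h' => ?_
  have h1 : Supp (id : M → M) p (fb p X b) {b} ε F u s := h'.mono (fb_mono h) le_rfl hε
  have h2 : Supp (id : M → M) p Y univ ε' F u s := h'.mono (fun _ h => h.1) (subset_univ _) le_rfl
  rw [Form.pull_val _ _ h'.at, Form.pull_val _ _ h'.at, Function.id_comp, Form.pull_val _ _ h1.at,
    Form.pull_val _ _ h2.at]

/-- the points of `{b}` -/
theorem mem_pt : ∀ x ∈ ({b} : Set M), x = b := fun _ h => h

/-! ### Elements of low list degree vanish on the fibre -/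

/-- an element of degree `q` without lists of length `q + 1` vanishes on the fibre -/
theorem rO_low {w : HT (id : M → M) p X univ ε} (hw : w ∈ (hN (id : M → M) p X univ ε).deg q)
    (h : len (q + 1) w.val = 0) : (rO p X b ε).f w = 0 := by
  refine HT.ext ?_
  have h1 : TDg (q + 1) ((rO p X b ε).f w).val := (rO p X b ε).deg hw
  rw [HT.val_zero, ← h1.len_point (x₀ := b) mem_pt]
  change len (q + 1) (Form.pull id (map_fb p X b ε) w.val) = 0
  rw [← pull_len Sq.id, h]
  exact map_zero (Form.pullA id (map_fb p X b ε))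

/-! ### The value at `b` -/

/-- the constant plot at `b` with the list `l` -/
theorem supp_pt (hε : 0 < ε) (hl : SmL (fb p X b) ε l) : Supp (id : M → M) p (fb p X b) {b} ε {b}
    (fun _ : ℝ => ((Finsupp.single b 1, l) : MP M P)) 0 := by
  classical
  refine ⟨⟨fun x hx => Finset.mem_singleton.1 hx, fun x hx y hy => ?_⟩, hl, fun x hx w hw => ?_,
    Eventually.of_forall fun _ => rfl, Eventually.of_forall fun _ x hx => ?_,
    Eventually.of_forall fun _ => ?_, fun x => Sm.of_contDiff contDiff_const _⟩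
  · rw [Finset.mem_singleton.1 hx, Finset.mem_singleton.1 hy, dist_self]
    exact hε
  · rw [Finset.mem_singleton.1 hw, (hl.1 x hx).2, id, dist_self]
    exact hε
  · exact Finsupp.single_eq_of_ne fun h => hx (by rw [h]; exact Finset.mem_singleton_self b)
  · rw [Finset.sum_singleton]
    exact Finsupp.single_eq_same

/-- the values of `w` on the fibre over `b` -/
def vb (b : M) (w : Form (DT (id : M → M) p X univ ε)) (l : List P) : Lam ℝ :=
  w.val (fun _ : ℝ => ((Finsupp.single b 1, l) : MP M P)) 0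

theorem vb_rO (hε : 0 < ε) (w : HT (id : M → M) p X univ ε) (hl : SmL (fb p X b) ε l) :
    ((rO p X b ε).f w).val.val (fun _ : ℝ => ((Finsupp.single b 1, l) : MP M P)) 0 =
      vb b w.val l :=
  Form.pull_val (map_fb p X b ε) _ (supp_pt hε hl).at

/-- **if `w` is exact on the fibre, it vanishes on the cycles of the fibre** -/
theorem vb_cycle (hε : 0 < ε) {w : HT (id : M → M) p X univ ε}
    (hB : (rO p X b ε).f w ∈ (oN p X b ε).B q) {z : Ch ℝ P}
    (hz : z ∈ Sp ℝ fun l => l.length = q + 1 ∧ SmL (fb p X b) ε l)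
    (hbd : ∃ r, Sl.bd z = Finsupp.single [] r) : pr (vb b w.val) z = 0 := by
  cases q with
  | zero =>
    have h0 : (rO p X b ε).f w = 0 := hB
    refine pr_zero_of hz fun l hl => ?_
    rw [← vb_rO hε w hl.2, h0]
    rfl
  | succ q =>
    obtain ⟨g, hg, hgw⟩ := NDga.mem_B_succ _ |>.1 hB
    have e1 : ∀ l, l.length = q + 1 + 1 ∧ SmL (fb p X b) ε l → vb b w.val l =
        bl (fun l' => -g.val.val (fun _ : ℝ => ((Finsupp.single b 1, l') : MP M P)) 0) l := by
      intro l hl
      rw [← vb_rO hε w hl.2, ← hgw]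
      change (-D g.val).val _ _ = _
      rw [D_point (x₀ := b) mem_pt, Form.neg_val, del_val _ (supp_pt hε hl.2)]
      have := bl_smul (-1 : ℝ) (fun l' : List P =>
        g.val.val (fun _ : ℝ => ((Finsupp.single b 1, l') : MP M P)) 0) l
      simp only [neg_one_smul] at this
      exact this.symm
    rw [pr_congr hz e1, pr_bl]
    obtain ⟨r, hr⟩ := hbd
    rw [hr, pr_single]
    have h2 : g.val.val (fun _ : ℝ => ((Finsupp.single b 1, ([] : List P)) : MP M P)) 0 = 0 :=
      val_nil g.len_val' (supp_pt hε ⟨by simp, by simp⟩) rfl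
    rw [h2, neg_zero, smul_zero]

/-- the constant plot at `b` -/
theorem suppM_pt (hδ : 0 < δ) : SuppM (univ : Set M) δ {b}
    (fun _ : ℝ => (Finsupp.single b 1 : M →₀ ℝ)) 0 := by
  classical
  refine ⟨⟨fun x _ => mem_univ _, fun x hx y hy => ?_⟩, Eventually.of_forall fun _ x hx => ?_,
    Eventually.of_forall fun _ => ?_, fun x => Sm.of_contDiff contDiff_const _⟩
  · rw [Finset.mem_singleton.1 hx, Finset.mem_singleton.1 hy, dist_self]
    exact hδ
  · exact Finsupp.single_eq_of_ne fun h => hx (by rw [h]; exact Finset.mem_singleton_self b)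
  · rw [Finset.sum_singleton]
    exact Finsupp.single_eq_same

/-- the value of the evaluation at `b` -/
theorem evz_pt (hS : Scl ε₁ ε δ) (hζ : Cy p X ε₁ δ q ζ) (hδ : 0 < δ)
    (w : Form (DT (id : M → M) p X univ ε)) :
    (evz hS hζ w).val (fun _ : ℝ => (Finsupp.single b 1 : M →₀ ℝ)) 0 = pr (vb b w) (ζ b) := by
  rw [evz_val hS hζ w (suppM_pt hδ), Finset.sum_singleton, Finsupp.single_eq_same, one_smul]
  rfl

theorem fib_mem (hS : Scl ε₁ ε δ) (hδ : 0 < δ) (hζ : Cy p X ε₁ δ q ζ)
    (hf : ζ b ∈ Sp ℝ fun l => ∀ x ∈ l, p x = b) :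
    ζ b ∈ Sp ℝ fun l => l.length = q + 1 ∧ SmL (fb p X b) ε l := by
  have h1 := hζ.mem b
  rw [Finsupp.mem_supported] at h1 hf ⊢
  intro l hl
  have h2 := h1 hl
  have h3 := hf hl
  refine ⟨h2.1, fun x hx => ⟨h2.2.1.1 x hx, h3 x hx⟩, fun x hx y hy => ?_⟩
  have := h2.2.1.2 x hx y hy
  linarith [hS.add]

/-- **(f0)**, the value at `b` -/
theorem f0_val (hS : Scl ε₁ ε δ) (hζ : Cy p X ε₁ δ q ζ) (hδ : 0 < δ)
    (hf : ζ b ∈ Sp ℝ fun l => ∀ x ∈ l, p x = b) {w : HT (id : M → M) p X univ ε}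
    (hB : (rO p X b ε).f w ∈ (oN p X b ε).B q) :
    (evz hS hζ w.val).val (fun _ : ℝ => (Finsupp.single b 1 : M →₀ ℝ)) 0 = 0 := by
  rw [evz_pt hS hζ hδ]
  exact vb_cycle (hδ.trans_le hS.le) hB (fib_mem hS hδ hζ hf) (hζ.bd b)

/-- **(f0)** for an evaluation which is a constant -/
theorem f0_const (hS : Scl ε₁ ε δ) (hζ : Cy p X ε₁ δ q ζ) (hδ : 0 < δ)
    (hf : ζ b ∈ Sp ℝ fun l => ∀ x ∈ l, p x = b) {w : HT (id : M → M) p X univ ε}
    (hc : ∃ r : ℝ, evz hS hζ w.val = algebraMap ℝ (Form (DM (univ : Set M) δ)) r)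
    (hB : (rO p X b ε).f w ∈ (oN p X b ε).B q) : evz hS hζ w.val = 0 := by
  obtain ⟨r, hr⟩ := hc
  have h1 := f0_val hS hζ hδ hf hB
  rw [hr, Algebra.algebraMap_eq_smul_one, Form.smul_val, Form.one_val (suppM_pt hδ |> fun h =>
    (⟨_, h⟩ : (DM (univ : Set M) δ).At _ _))] at h1
  have h2 : r = 0 := by
    have h3 := congrArg aug h1
    simpa using h3
  rw [hr, h2, map_zero]

end

end Vale.Agent.P216.H313V
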